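import Mathlib
import Vale.Agent.P097.Defs
import Vale.Agent.P097.Reg.STab

/-!
# P097, near every non-circular ellipse: frozen interface (helper323)

Statements only.  Mathematics: P097 note 16031 of helper323.
-/

namespace Vale.Agent.P097.L

open Complex Filter Topology
open scoped ComplexConjugate

/-! ## real objects attached to the ellipse with half axes `√(1+m)`, `1` -/

/-- `∫_0^s dσ / √(1 + m sin² σ - lam)`, normalised to period `1`. -/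
noncomputable def Ts (m lam s : ℝ) : ℝ :=
  (∫ σ in (0 : ℝ)..s, (Real.sqrt (1 + m * Real.sin σ ^ 2 - lam))⁻¹) /
    (∫ σ in (0 : ℝ)..(2 * Real.pi), (Real.sqrt (1 + m * Real.sin σ ^ 2 - lam))⁻¹)

/-- rotation number of the leaf `lam`. -/
noncomputable def wr (m lam : ℝ) : ℝ :=
  2 * Ts m lam (Real.arcsin (Real.sqrt (lam / (1 + m))))

/-- The first variation conditions on the leaves `lam < lam0`; `γ` is a function of the eccentric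
angle. -/
def LeafCond (m lam0 : ℝ) (γ : ℝ → ℝ) : Prop :=
  ∀ lam : ℝ, 0 < lam → lam < lam0 → ∀ N p : ℕ, 0 < N → (N : ℝ) * wr m lam = p →
    ∫ s in (0 : ℝ)..(2 * Real.pi), (γ s : ℂ) * exp (-(2 * Real.pi * I * N * (Ts m lam s : ℝ))) *
      (((Real.sqrt (1 + m * Real.sin s ^ 2 - lam))⁻¹ : ℝ) : ℂ) = 0

/-- real-analytic and `c`-periodic -/
def AnPer (c : ℝ) (γ : ℝ → ℝ) : Prop := (∀ x, AnalyticAt ℝ γ x) ∧ ∀ x, γ (x + c) = γ x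

/-- **Theorem A**. -/
def ThmA : Prop := ∀ m lam0 : ℝ, 0 < m → 0 < lam0 → ∀ γ : Fin 6 → ℝ → ℝ,
  (∀ i, AnPer (2 * Real.pi) (γ i)) → (∀ i, LeafCond m lam0 (γ i)) →
    ∃ c : Fin 6 → ℝ, c ≠ 0 ∧ ∀ s, ∑ i, c i * γ i s = 0

/-! ## A1: elliptic functions -/

/-- isotropic points -/
def Iso (b : ℝ) : Set ℂ := {x | ∃ j : ℤ, x = (j : ℂ) / 2 + b * I ∨ x = (j : ℂ) / 2 - b * I}

/-- The elliptic function package. In terms of Jacobi functions of modulus `k`,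
`k² = m / (1 + m)`: `b = K'/(4K)`, `Pi = 4K/√(1+m)`, `P x = dn(4Kx)²`, `ph ξ = sn(4Kξ)/cn(4Kξ)`,
`s x = π/2 + am(4Kx - K)`. -/
structure Ell (m : ℝ) where
  b : ℝ
  Pi : ℝ
  s : ℝ → ℝ
  P : ℂ → ℂ
  ph : ℂ → ℂ
  b0 : 0 < b
  Pi0 : 0 < Pi
  s0 : s 0 = 0
  ds : ∀ x, HasDerivAt s (Pi * Real.sqrt (1 + m * Real.sin (s x) ^ 2)) x
  sper : ∀ x, s (x + 1) = s x + 2 * Real.pi
  dP : ∀ x : ℂ, |x.im| < 3 * b → x ∉ Iso b → DifferentiableAt ℂ P x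
  per : ∀ x : ℂ, P (x + 1 / 2) = P x
  cnj : ∀ x : ℂ, P (conj x) = conj (P x)
  neg : ∀ x : ℂ, P (-x) = P x
  refl : ∀ x : ℂ, P (2 * b * I - x) = P x
  bd : ∃ C : ℝ, ∀ x : ℂ, |x.im| ≤ 2 * b → ‖P x‖ * Metric.infDist x (Iso b) ^ 2 ≤ C
  real : ∀ x : ℝ, P x = (((1 + m * Real.sin (s x) ^ 2)⁻¹ : ℝ) : ℂ)
  slit : ∀ x : ℂ, |x.im| < b → P x ∈ slitPlane
  ode : ∀ x : ℂ, |x.im| < 3 * b → x ∉ Iso b →
    deriv P x ^ 2 = -4 * Pi ^ 2 * P x * (1 - P x) * (1 - (1 + m) * P x)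
  line : ∀ ξ : ℝ, (P (ξ + b * I)).im = 0 ∧ (P (ξ + b * I)).re ≤ 0
  quarter : P (1 / 4 + b * I) = 0
  zeros : ∀ x : ℂ, |x.im| ≤ b → x ∉ Iso b → P x = 0 →
    ∃ j : ℤ, x = 1 / 4 + (j : ℂ) / 2 + b * I ∨ x = 1 / 4 + (j : ℂ) / 2 - b * I
  dph : ∀ ξ : ℂ, |ξ.re| < 1 / 4 → |ξ.im| < b → DifferentiableAt ℂ ph ξ
  ph0 : ph 0 = 0
  phodd : ∀ ξ : ℂ, ph (-ξ) = -ph ξ
  phcnj : ∀ ξ : ℂ, ph (conj ξ) = conj (ph ξ)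
  dph0 : deriv ph 0 = ((Pi * Real.sqrt (1 + m) : ℝ) : ℂ)
  phode : ∀ ξ : ℂ, |ξ.re| < 1 / 4 → |ξ.im| < b →
    deriv ph ξ ^ 2 = Pi ^ 2 * (1 + ph ξ ^ 2) * (1 + m + ph ξ ^ 2)
  Pph : ∀ ξ : ℂ, |ξ.re| < 1 / 4 → |ξ.im| < b → ξ ≠ 0 → P (ξ + b * I) * ph ξ ^ 2 = -1

/-- A1 -/
def StEll : Prop := ∀ m : ℝ, 0 < m → Nonempty (Ell m)

/-! ## A2: the family of leaves for small complex rotation number -/

/-- domain of the family -/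
def Dom (b κ r : ℝ) : Set (ℂ × ℂ) := {p | ‖p.2‖ < r ∧ |p.1.im| < b - κ * ‖p.2‖}

structure XFam (b r κ : ℝ) (X : ℂ → ℂ → ℂ) : Prop where
  b0 : 0 < b
  r0 : 0 < r
  κ0 : 0 < κ
  im : ∀ t w, (t, w) ∈ Dom b κ r → |(X t w).im| ≤ |t.im| + κ * ‖w‖
  diff : DifferentiableOn ℂ (fun p : ℂ × ℂ => X p.1 p.2) (Dom b κ r)
  per : ∀ t w, (t, w) ∈ Dom b κ r → X (t + 1) w = X t w + 1
  even : ∀ t w, (t, w) ∈ Dom b κ r → X t (-w) = X t w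
  zero : ∀ t, |t.im| < b → X t 0 = t
  /-- local extension near the points of the closed strip which are not isotropic -/
  loc : ∀ t₀ : ℂ, |t₀.im| ≤ b → t₀ ∉ Iso b → ∃ ρ > 0, ∃ r' > 0, ∃ C : ℝ, ∃ Y : ℂ → ℂ → ℂ,
    DifferentiableOn ℂ (fun p : ℂ × ℂ => Y p.1 p.2) {p | ‖p.1 - t₀‖ < ρ ∧ ‖p.2‖ < r'} ∧
    (∀ t w, ‖t - t₀‖ < ρ → ‖w‖ < r' → ‖Y t w - t‖ ≤ C * ‖w‖ ^ 2 ∧ Y t (-w) = Y t w) ∧
    (∀ t w, ‖t - t₀‖ < ρ → ‖w‖ < r' → (t, w) ∈ Dom b κ r → Y t w = X t w)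

/-- A2 -/
def StXF : Prop := ∀ (m : ℝ), 0 < m → ∀ (E : Ell m) (lam0 : ℝ), 0 < lam0 →
  ∃ (r κ : ℝ) (X : ℂ → ℂ → ℂ), XFam E.b r κ X ∧
    ∀ w : ℝ, 0 < w → w < r → ∃ lam : ℝ, 0 < lam ∧ lam < lam0 ∧ lam < 1 ∧ wr m lam = w ∧
      ∀ t : ℝ, (X t w).im = 0 ∧ Ts m lam (E.s (X t w).re) = t

/-! ## A3: extension of the density to the closed strip -/

/-- `g` (near the strip `|Im| < b'`) satisfies the leaf conditions. -/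
def GCond (r : ℝ) (X : ℂ → ℂ → ℂ) (g : ℂ → ℂ) : Prop :=
  ∀ w : ℝ, 0 < w → w < r → ∀ N p : ℤ, N ≠ 0 → (N : ℝ) * w = p →
    ∫ t in (0 : ℝ)..1, g (X t w) * exp (-(2 * Real.pi * I * N * t)) = 0

/-- A3a: the potential -/
def StF : Prop := ∀ (b r κ : ℝ) (X : ℂ → ℂ → ℂ), XFam b r κ X → ∃ r₁ > 0, ∃ κ₁ > 0, r₁ ≤ r ∧
  ∀ b' : ℝ, 0 < b' → b' ≤ b → ∀ g : ℂ → ℂ, DifferentiableOn ℂ g {x | |x.im| < b'} →
    (∀ x, |x.im| < b' → g (x + 1) = g x) → GCond r X g →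
    ∃ (F : ℂ → ℂ → ℂ) (G0 : ℂ → ℂ) (c : ℂ),
      DifferentiableOn ℂ (fun p : ℂ × ℂ => F p.1 p.2) (Dom b' κ₁ r₁) ∧
      DifferentiableOn ℂ G0 {w | ‖w‖ < r₁} ∧
      (∀ t w, (t, w) ∈ Dom b' κ₁ r₁ → F t (-w) = F t w) ∧ (∀ w, ‖w‖ < r₁ → G0 (-w) = G0 w) ∧
      (∀ t w, (t, w) ∈ Dom b' κ₁ r₁ → F (t + 1) w = F t w) ∧
      (∀ t w, ‖w‖ < r₁ → (t + w / 2, w) ∈ Dom b' κ₁ r₁ → (t - w / 2, w) ∈ Dom b' κ₁ r₁ →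
        (t, w) ∈ Dom b' κ r → F (t + w / 2) w - F (t - w / 2) w = w * (g (X t w) - G0 w)) ∧
      ∀ t, |t.im| < b' → HasDerivAt (fun t => F t 0) (g t - c) t

/-- A3b: the kink lemma. The potential at a point `t₀` of the boundary line of the known strip
forces `g` to extend analytically to a neighbourhood of `t₀`. -/
def StKink : Prop := ∀ (b r κ : ℝ) (X : ℂ → ℂ → ℂ), XFam b r κ X → ∀ (r₁ κ₁ b' : ℝ), 0 < r₁ →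
  0 < κ₁ → r₁ ≤ r → 0 < b' → b' ≤ b → ∀ (g : ℂ → ℂ) (F : ℂ → ℂ → ℂ) (G0 : ℂ → ℂ) (c : ℂ),
    DifferentiableOn ℂ g {x | |x.im| < b'} →
    DifferentiableOn ℂ (fun p : ℂ × ℂ => F p.1 p.2) (Dom b' κ₁ r₁) →
    DifferentiableOn ℂ G0 {w | ‖w‖ < r₁} →
    (∀ t w, (t, w) ∈ Dom b' κ₁ r₁ → F t (-w) = F t w) → (∀ w, ‖w‖ < r₁ → G0 (-w) = G0 w) →
    (∀ t w, ‖w‖ < r₁ → (t + w / 2, w) ∈ Dom b' κ₁ r₁ → (t - w / 2, w) ∈ Dom b' κ₁ r₁ →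
        (t, w) ∈ Dom b' κ r → F (t + w / 2) w - F (t - w / 2) w = w * (g (X t w) - G0 w)) →
    (∀ t, |t.im| < b' → HasDerivAt (fun t => F t 0) (g t - c) t) →
    ∀ t₀ : ℂ, t₀.im = b' → t₀ ∉ Iso b → ∃ ρ > 0, ∃ g₁ : ℂ → ℂ,
      DifferentiableOn ℂ g₁ (Metric.ball t₀ ρ) ∧
      ∀ x ∈ Metric.ball t₀ ρ, |x.im| < b' → g₁ x = g x

/-- `g` is an analytic extension of `γ` to a neighbourhood of the closed strip minus the isotropic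
points. -/
structure Ext (b : ℝ) (γ : ℝ → ℝ) (O : Set ℂ) (g : ℂ → ℂ) : Prop where
  op : IsOpen O
  sub : ∀ x : ℂ, |x.im| ≤ b → x ∉ Iso b → x ∈ O
  diff : DifferentiableOn ℂ g O
  real : ∀ x : ℝ, g x = γ x
  perO : ∀ x, x ∈ O → x + 1 ∈ O
  per : ∀ x ∈ O, g (x + 1) = g x
  cnjO : ∀ x, x ∈ O → conj x ∈ O
  cnj : ∀ x ∈ O, g (conj x) = conj (g x)

/-- A3c -/
def StExt : Prop := ∀ (b r κ : ℝ) (X : ℂ → ℂ → ℂ), XFam b r κ X → ∀ γ : ℝ → ℝ, AnPer 1 γ →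
  (∀ w : ℝ, 0 < w → w < r → ∀ t : ℝ, (X t w).im = 0) →
  (∀ w : ℝ, 0 < w → w < r → ∀ N p : ℕ, 0 < N → (N : ℝ) * w = p →
    ∫ t in (0 : ℝ)..1, (γ (X t w).re : ℂ) * exp (-(2 * Real.pi * I * N * t)) = 0) →
  ∃ (O : Set ℂ) (g : ℂ → ℂ), Ext b γ O g

/-! ## A4, A5: the isotropic points -/

/-- `∫_0^y dy / (2 √((μ²+y)(1+y)(1+m+y)))` for small `y`. -/
noncomputable def Fmu (m μ : ℝ) (y : ℂ) : ℂ :=
  ∫ t in (0 : ℝ)..1, y * (2 * (((μ : ℂ) ^ 2 + t * y) * (1 + t * y) * (1 + m + t * y)) ^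
    (1 / 2 : ℂ))⁻¹

/-- regularity of the sum over the leaf at an isotropic point; `gl` is a function of `ρ` with
`ρ² = -1/P`. -/
def Reg (m μ : ℝ) (gl : ℂ → ℂ) : Prop := ∃ A : ℂ → ℂ, AnalyticAt ℂ A 0 ∧ ∃ ρ > 0,
  ∀ x₁ x₂ : ℂ, ‖x₁‖ < ρ → ‖x₂‖ < ρ → x₁.im < 0 → x₂.im < 0 → 0 < x₁.re → x₂.re < 0 →
    Fmu m μ (x₁ ^ 2) + Fmu m μ (x₂ ^ 2) = 0 → gl x₁ + gl x₂ = A (Fmu m μ (x₁ ^ 2))

/-- A4. `gl` is `g` in the coordinate `ph` at the isotropic point `j/2 + bI`. -/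
def StLeaf : Prop := ∀ (m lam0 : ℝ), 0 < m → 0 < lam0 → ∀ (E : Ell m) (γ : ℝ → ℝ),
  AnPer (2 * Real.pi) γ → LeafCond m lam0 γ → ∀ (O : Set ℂ) (g : ℂ → ℂ),
  Ext E.b (fun x => γ (E.s x)) O g → ∃ μ₀ > 0, ∃ S : Set ℝ,
    (∀ μ₁ μ₂ : ℝ, 0 < μ₁ → μ₁ < μ₂ → μ₂ < μ₀ → ∃ μ ∈ S, μ₁ < μ ∧ μ < μ₂) ∧
    ∀ μ ∈ S, 0 < μ → μ < μ₀ → ∀ j : ℕ, j < 2 → ∀ (inv : ℂ → ℂ) (ρ : ℝ), 0 < ρ →
      (∀ x : ℂ, ‖x‖ < ρ → |(inv x).re| < 1 / 4 ∧ |(inv x).im| < E.b ∧ E.ph (inv x) = x) →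
      AnalyticAt ℂ inv 0 → inv 0 = 0 →
      Reg m μ (fun x => g ((j : ℂ) / 2 + E.b * I + inv x))

/-- A5 -/
def StMP : Prop := ∀ (m : ℝ), 0 < m → ∀ (gl : ℂ → ℂ) (ρ₀ μ₀ : ℝ), 0 < ρ₀ → 0 < μ₀ →
  (∀ x : ℂ, ‖x‖ < ρ₀ → x.im ≤ 0 → x ≠ 0 → AnalyticAt ℂ gl x) → ∀ S : Set ℝ,
  (∀ μ₁ μ₂ : ℝ, 0 < μ₁ → μ₁ < μ₂ → μ₂ < μ₀ → ∃ μ ∈ S, μ₁ < μ ∧ μ < μ₂) →
  (∀ μ ∈ S, 0 < μ → μ < μ₀ → Reg m μ gl) →
  ∃ ρ > 0, ∃ Γ : ℂ → ℂ, DifferentiableOn ℂ Γ {y | 0 < ‖y‖ ∧ ‖y‖ < ρ ^ 2} ∧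
    (∀ x : ℂ, ‖x‖ < ρ → x.im ≤ 0 → x ≠ 0 → gl x = Γ (x ^ 2)) ∧
    ∃ C : ℝ, ∀ y : ℂ, 0 < ‖y‖ → ‖y‖ < ρ ^ 2 → ‖y‖ * ‖Γ y‖ ≤ C

/-! ## A6: the dimension -/

/-- local form at the isotropic point `c` -/
def Pole (g : ℂ → ℂ) (c : ℂ) : Prop := ∃ ρ > 0, ∃ H : ℂ → ℂ,
  DifferentiableOn ℂ H {ξ | 0 < ‖ξ‖ ∧ ‖ξ‖ < ρ} ∧ (∀ ξ, H (-ξ) = H ξ) ∧
  (∃ C : ℝ, ∀ ξ : ℂ, 0 < ‖ξ‖ → ‖ξ‖ < ρ → ‖ξ‖ ^ 2 * ‖H ξ‖ ≤ C) ∧
  ∀ ξ : ℂ, 0 < ‖ξ‖ → ‖ξ‖ < ρ → ξ.im ≤ 0 → g (c + ξ) = H ξ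

/-- A6 -/
def StDim : Prop := ∀ (b : ℝ), 0 < b → ∀ (γ : Fin 6 → ℝ → ℝ) (O : Fin 6 → Set ℂ)
  (g : Fin 6 → ℂ → ℂ), (∀ i, Ext b (γ i) (O i) (g i)) →
  (∀ i, Pole (g i) (b * I)) → (∀ i, Pole (g i) (1 / 2 + b * I)) →
  ∃ c : Fin 6 → ℝ, c ≠ 0 ∧ ∀ x : ℝ, ∑ i, c i * γ i x = 0

/-! ## the real part -/

/-- support functions of ellipses (discs included) -/
noncomputable def ell (A B C p q : ℝ) (ψ : ℝ) : ℝ :=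
  Real.sqrt (A * Real.cos ψ ^ 2 + 2 * B * Real.cos ψ * Real.sin ψ + C * Real.sin ψ ^ 2) +
    p * Real.cos ψ + q * Real.sin ψ

/-- `h` is the support function of an ellipse (possibly a disc). -/
def IsEllipse (h : ℝ → ℝ) : Prop :=
  ∃ A B C p q : ℝ, 0 < A ∧ 0 < A * C - B ^ 2 ∧ ∀ ψ, h ψ = ell A B C p q ψ

/-- the model ellipse, `h = √(1 + m cos² ψ)` -/
noncomputable def hm (m : ℝ) (ψ : ℝ) : ℝ := ell (1 + m) 0 1 0 0 ψ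

/-- R: the first variation. `h n`, `k n` have collars and tend to the model ellipse, and
`(h n - k n) / e n → g`; then `hm · g` satisfies the leaf conditions (`eccentric` is the normal
angle as a function of the eccentric angle). -/
def StReal : Prop := ∀ m η : ℝ, 0 < m → 0 < η → ∃ lam0 > 0, ∀ (h k : ℕ → ℝ → ℝ) (e : ℕ → ℝ)
  (g : ℝ → ℝ) (nu : ℝ → ℝ), (∀ n, SmoothTable (h n)) → (∀ n, SmoothTable (k n)) →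
  (∀ n, Collar (h n) η) → (∀ n, Collar (k n) η) → (∀ n, 0 < e n) →
  TendstoUniformly h (hm m) atTop → TendstoUniformly k (hm m) atTop →
  TendstoUniformly (fun n ψ => (h n ψ - k n ψ) / e n) g atTop → Continuous g →
  (∀ s, Real.cos (nu s) = hm m (nu s) * Real.cos s / Real.sqrt (1 + m) ∧
    Real.sin (nu s) = hm m (nu s) * Real.sin s) →
  LeafCond m lam0 (fun s => hm m (nu s) * g (nu s))

/-- ellipses near the model have a uniform collar -/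
def StEllCollar : Prop := ∀ m : ℝ, 0 < m → ∃ η > 0, ∃ κ > 0, ∀ A B C p q : ℝ,
  |A - (1 + m)| < κ → |B| < κ → |C - 1| < κ →
    SmoothTable (ell A B C p q) ∧ Collar (ell A B C p q) η

/-- C: compactness of normalised differences -/
def StCpt : Prop := ∃ K : ℕ, ∀ m η M : ℝ, 0 < m → 0 < η → ∀ (h : ℕ → ℝ → ℝ)
  (A B C p q : ℕ → ℝ),
  (∀ n, SmoothTable (h n)) → (∀ n, Collar (h n) η) →
  (∀ n, ∀ i ≤ K, ∀ x, |iteratedDeriv i (h n) x| ≤ M) →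
  Tendsto A atTop (𝓝 (1 + m)) → Tendsto B atTop (𝓝 0) → Tendsto C atTop (𝓝 1) →
  Tendsto p atTop (𝓝 0) → Tendsto q atTop (𝓝 0) → TendstoUniformly h (hm m) atTop →
  (∀ n, h n ≠ ell (A n) (B n) (C n) (p n) (q n)) →
  ∃ (φ : ℕ → ℕ) (e : ℕ → ℝ) (g : ℝ → ℝ), StrictMono φ ∧ (∀ n, 0 < e n) ∧
    TendstoUniformly (fun n ψ => (h (φ n) ψ -
      ell (A (φ n)) (B (φ n)) (C (φ n)) (p (φ n)) (q (φ n)) ψ) / e n) g atTop ∧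
    AnPer (2 * Real.pi) g ∧ g ≠ 0

/-- T1: the nearest ellipse in mean square is orthogonal to the tangent functions of the family
of ellipses. -/
def StNear : Prop := ∀ (m : ℝ), 0 < m → ∀ (h : ℕ → ℝ → ℝ), (∀ n, Continuous (h n)) →
  TendstoUniformly h (hm m) atTop → ∃ (A B C p q : ℕ → ℝ),
    Tendsto A atTop (𝓝 (1 + m)) ∧ Tendsto B atTop (𝓝 0) ∧ Tendsto C atTop (𝓝 1) ∧
    Tendsto p atTop (𝓝 0) ∧ Tendsto q atTop (𝓝 0) ∧ ∀ᶠ n in atTop,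
      ∀ v : Fin 5, ∫ ψ in (0 : ℝ)..(2 * Real.pi),
        (h n ψ - ell (A n) (B n) (C n) (p n) (q n) ψ) *
          ![Real.cos ψ ^ 2 / ell (A n) (B n) (C n) 0 0 ψ,
            Real.cos ψ * Real.sin ψ / ell (A n) (B n) (C n) 0 0 ψ,
            Real.sin ψ ^ 2 / ell (A n) (B n) (C n) 0 0 ψ, Real.cos ψ, Real.sin ψ] v = 0

/-- T2: the theorem at the model ellipse -/
def FinalModel : Prop := ∃ K : ℕ, ∀ m η M : ℝ, 0 < m → 0 < η →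
  ∃ κ > 0, ∀ h : ℝ → ℝ, SmoothTable h → Collar h η → (∀ i ≤ K, ∀ x, |iteratedDeriv i h x| ≤ M) →
    (∀ ψ, |h ψ - hm m ψ| < κ) → IsEllipse h

/-- The final theorem: near every non-circular ellipse, tables with a collar of given width are
ellipses. -/
def Final : Prop := ∃ K : ℕ, ∀ E : ℝ → ℝ, IsEllipse E →
  (¬ ∃ r p q : ℝ, ∀ ψ, E ψ = r + p * Real.cos ψ + q * Real.sin ψ) → ∀ η M : ℝ, 0 < η →
  ∃ κ > 0, ∀ h : ℝ → ℝ, SmoothTable h → Collar h η → (∀ i ≤ K, ∀ x, |iteratedDeriv i h x| ≤ M) →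
    (∀ ψ, |h ψ - E ψ| < κ) → IsEllipse h

/-! ## the blocks

A1: `StEll`; A2: `StXF`; A3a: `StF`; A3b: `StKink`; A3c: `StF → StKink → StExt`;
A4: `StEll → StLeaf`; A5: `StMP`; A6: `StDim`; A7: the implication below;
R: `StReal`, `StEllCollar`; C: `StCpt`; T1: `StNear`; T2, T3: below. -/

/-- A7 -/
def StA7 : Prop := StEll → StXF → StExt → StLeaf → StMP → StDim → ThmA

/-- T2 -/
def StT2 : Prop := ThmA → StReal → StEllCollar → StCpt → StNear → FinalModel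

/-- T3: similarities -/
def StT3 : Prop := FinalModel → Final

end Vale.Agent.P097.L
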